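import Vale.Agent.P144S.Defs
import Vale.Agent.P144Q.A.Norm

/-!
The normalisation for an odd number of spins with the plus boundary condition.
-/

namespace Vale.Agent.P144S.B

open Finset Filter Topology Metric Vale.Agent.P144 Vale.Agent.P144Q
open Vale.Agent.P144.H170 (pt bx mem_bx pt_fl_norm ev_nf)
open Vale.Agent.P144.AL (cnr mem_cnr fcs srcs)
open Vale.Agent.P144G (KC)

/-! ### spins -/

theorem sP_out (J : ℝ) (P : Finset Site) (R R' : Multiset Site) (h : ∀ x ∈ R', x ∉ P) :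
    sP J P (R + R') = sP J P R := by
  unfold sP pl gibbs P144.expect
  simp only
  congr 1
  refine sum_congr rfl fun T _ => ?_
  congr 1
  have : (R'.map fun x => sp (P144.ext P (fun _ => true) T x)).prod = 1 :=
    Multiset.prod_eq_one fun y hy => by
      obtain ⟨x, hx, rfl⟩ := Multiset.mem_map.1 hy
      simp [P144.ext, h x hx, sp]
  rw [Multiset.map_add, Multiset.prod_add, this, mul_one]

theorem sP_eq (hK : SKW) (hB : SBlk) {J : ℝ} (hJ : 0 < J) {P : Finset Site} (hn : NC P)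
    (hb : Blk P) (R : Multiset Site) : sP J P R = H436.MM (Vx P) R := by
  rw [← hK J hJ P hn R]
  unfold MM H436.MM
  rw [(hB P hb).1, (hB P hb).1]

theorem GP_one (J : ℝ) (P : ℝ → Finset Site) (z : ℂ) (a : ℝ) :
    GP J P {z} a = a ^ (-(1 : ℝ) / 8) * sP J (P a) {fl a z} := by
  simp [GP]

theorem MM_le_two {Λ L₁ L₂ : Finset Site} (h1 : L₁ ⊆ Λ) (h2 : L₂ ⊆ Λ) (hd : Disjoint L₁ L₂)
    (R : Multiset Site) : H436.MM Λ R ≤ H436.MM L₁ R * H436.MM L₂ R := by
  have := H436.MM_le_prod (univ : Finset Bool) (Λ := Λ) (fun b => cond b L₁ L₂)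
    (by rintro (_ | _) _ <;> assumption)
    (by
      rintro (_ | _) _ (_ | _) _ h
      · exact absurd rfl h
      · exact hd.symm
      · exact hd
      · exact absurd rfl h) R
  simpa using this

theorem MM_bx {c f : Site} {m : ℕ} (h : f ∉ bx c m) (R : Multiset Site) :
    H436.MM (bx c m) (f ::ₘ R) = H436.MM (bx c m) R := by
  refine H436.MM_out ?_ R
  rw [mem_bx] at h
  by_cases h1 : f.2 < c.2 - m
  · refine Or.inr fun x hx _ => ?_
    have := mem_bx.1 (mem_hor.1 hx).1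
    lia
  · refine Or.inl fun x hx e => ?_
    have := mem_bx.1 (mem_hor.1 hx).1
    lia

/-! ### removing a box of blocks -/

theorem rt_mono {r p : Site → Site → Prop} {v w : Site} (h : Relation.ReflTransGen r v w)
    (hr : ∀ x y, r x y → p x y) : Relation.ReflTransGen p v w :=
  Relation.ReflTransGen.mono hr v w h

/-- The box of blocks. -/
def InB (c : Site) (m : ℕ) (x : Site) : Prop :=
  (c.1 / 2 - m ≤ x.1 / 2 ∧ x.1 / 2 ≤ c.1 / 2 + m) ∧ (c.2 / 2 - m ≤ x.2 / 2 ∧ x.2 / 2 ≤ c.2 / 2 + m)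

open Classical in
/-- The set without the box. -/
noncomputable def cut (P : Finset Site) (c : Site) (m : ℕ) : Finset Site :=
  P.filter fun x => ¬ InB c m x

theorem mem_cut {P : Finset Site} {c x : Site} {m : ℕ} : x ∈ cut P c m ↔ x ∈ P ∧ ¬ InB c m x := by
  simp only [cut, mem_filter]

theorem box_conn {c : Site} {m : ℕ} {w : Site} (hw : InB c m w) : ∀ (n : ℕ) (v : Site),
    (v.1 - w.1).natAbs + (v.2 - w.2).natAbs = n → InB c m v →
    Relation.ReflTransGen (fun x y : Site => InB c m y ∧ |x.1 - y.1| + |x.2 - y.2| = 1) v w := by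
  intro n
  induction n with
  | zero =>
    intro v h _
    have : v = w := Prod.ext (by lia) (by lia)
    rw [this]
  | succ n ih =>
    intro v h hv
    unfold InB at hw hv
    rcases lt_trichotomy v.1 w.1 with h1 | h1 | h1
    · have k : InB c m (v.1 + 1, v.2) := by unfold InB; simp only; omega
      exact Relation.ReflTransGen.head ⟨k, by simp⟩ (ih _ (by simp only; lia) k)
    · rcases lt_trichotomy v.2 w.2 with h2 | h2 | h2
      · have k : InB c m (v.1, v.2 + 1) := by unfold InB; simp only; omega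
        exact Relation.ReflTransGen.head ⟨k, by simp⟩ (ih _ (by simp only; lia) k)
      · lia
      · have k : InB c m (v.1, v.2 - 1) := by unfold InB; simp only; omega
        exact Relation.ReflTransGen.head ⟨k, by simp⟩ (ih _ (by simp only; lia) k)
    · have k : InB c m (v.1 - 1, v.2) := by unfold InB; simp only; omega
      exact Relation.ReflTransGen.head ⟨k, by simp⟩ (ih _ (by simp only; lia) k)

theorem nc_cut {P : Finset Site} {c o : Site} {m : ℕ} (hP : NC P) (ho : o ∉ P) (ho' : InB c m o) :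
    NC (cut P c m) := by
  have k1 : ∀ v ∉ P, ∀ w ∉ P, Relation.ReflTransGen
      (fun x y : Site => y ∉ cut P c m ∧ |x.1 - y.1| + |x.2 - y.2| = 1) v w := fun v hv w hw =>
    rt_mono (hP v hv w hw) fun x y h => ⟨fun h' => h.1 (mem_cut.1 h').1, h.2⟩
  have k2 : ∀ v, InB c m v → ∀ w, InB c m w → Relation.ReflTransGen
      (fun x y : Site => y ∉ cut P c m ∧ |x.1 - y.1| + |x.2 - y.2| = 1) v w := fun v hv w hw =>
    rt_mono (box_conn hw _ v rfl hv) fun x y h => ⟨fun h' => (mem_cut.1 h').2 h.1, h.2⟩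
  intro v hv w hw
  rw [mem_cut, not_and_or, not_not] at hv hw
  refine Relation.ReflTransGen.trans (b := o) ?_ ?_
  · exact hv.elim (fun h => k1 v h o ho) fun h => k2 v h o ho'
  · exact hw.elim (fun h => k1 o ho w h) fun h => k2 o ho' w h

theorem blk_cut {P : Finset Site} (c : Site) (m : ℕ) (hP : Blk P) : Blk (cut P c m) := by
  intro x y h1 h2 hx
  rw [mem_cut] at hx ⊢
  refine ⟨hP x y h1 h2 hx.1, fun h => hx.2 ?_⟩
  unfold InB at h ⊢
  rwa [h1, h2]

theorem kc_of_nc {P : Finset Site} (h : NC P) : KC P := fun v hv w hw =>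
  rt_mono (h v hv w hw) fun x y k => by
    have := abs_nonneg (x.1 - y.1)
    have := abs_nonneg (x.2 - y.2)
    exact ⟨k.1, by linarith [k.2], by linarith [k.2]⟩

/-- The size of the box. -/
noncomputable def mm (δ a : ℝ) : ℕ := ⌈δ / a⌉₊ + 3

theorem fl_pt {a : ℝ} (ha : 0 < a) (x : Site) : fl a (pt a x) = x := by
  unfold fl pt
  simp only
  rw [mul_div_cancel_left₀ _ ha.ne', mul_div_cancel_left₀ _ ha.ne', Int.floor_intCast,
    Int.floor_intCast]

theorem inB_of_near {a δ : ℝ} (ha : 0 < a) {z : ℂ} {x f : Site} (h : ‖pt a x - z‖ ≤ δ)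
    (hf : x ∈ cnr f) : InB (fl a z) (mm δ a) f := by
  have h1 := A.bx_fl ha h
  rw [fl_pt ha, mem_bx] at h1
  unfold InB mm
  rcases mem_cnr.1 hf with e | e | e | e <;> simp only [Prod.ext_iff] at e <;> omega

theorem near_of_inB {a δ : ℝ} (ha : 0 < a) (hδ : 0 ≤ δ) {z : ℂ} {x : Site}
    (h : InB (fl a z) (mm δ a) x) : ‖pt a x - z‖ ≤ 4 * δ + 20 * a := by
  unfold InB mm at h
  have h1 := pt_sub_le ha (x := fl a z) (y := x) (m := 2 * ⌈δ / a⌉₊ + 7)
    (abs_le.2 (by omega)) (abs_le.2 (by omega))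
  have h2 := pt_fl_norm ha z
  have h3 := norm_sub_le_norm_sub_add_norm_sub (pt a x) (pt a (fl a z)) z
  have h4 : a * (⌈δ / a⌉₊ : ℝ) ≤ δ + a := by
    have := (Nat.ceil_lt_add_one (show 0 ≤ δ / a from div_nonneg hδ ha.le)).le
    calc a * (⌈δ / a⌉₊ : ℝ) ≤ a * (δ / a + 1) := mul_le_mul_of_nonneg_left this ha.le
      _ = δ + a := by field_simp
  push_cast at h1
  linarith

/-! ### the boundary point -/

theorem exists_bd {D : Set ℂ} (ho : IsOpen D) (hD : D ⊆ ball 0 (1 / 4)) (hne : D.Nonempty) :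
    ∃ z₀ ∈ closure D, z₀ ∉ D ∧ ∀ z ∈ D, z.re ≤ z₀.re := by
  have hc : IsCompact (closure D) := (isBounded_ball.subset hD).isCompact_closure
  obtain ⟨z₀, h0, hm⟩ := hc.exists_isMaxOn hne.closure Complex.continuous_re.continuousOn
  refine ⟨z₀, h0, fun h => ?_, fun z hz => hm (subset_closure hz)⟩
  obtain ⟨r, hr, hb⟩ := nhds_basis_closedBall.mem_iff.1 (ho.mem_nhds h)
  have h1 : z₀ + r ∈ D := hb (by simp [abs_of_pos hr])
  have h2 : (z₀ + r).re ≤ z₀.re := hm (subset_closure h1)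
  simp at h2
  linarith

theorem ev_nc {D : Set ℂ} {P : ℝ → Finset Site} (hP : FamP D P) {z₀ : ℂ}
    (hre : ∀ z ∈ D, z.re ≤ z₀.re) {δ : ℝ} (hδ : 0 < δ) :
    ∀ᶠ a in 𝓝[>] (0 : ℝ), NC (cut (P a) (fl a z₀) (mm δ a)) := by
  filter_upwards [hP.2, hP.1.sub (δ / 8) (by positivity),
    P144P.ev_le (c := δ / 8) (by positivity)] with a h1 h2 ⟨ha, h3⟩
  have h4 := pt_fl_norm ha (z₀ + (δ / 2 : ℝ))
  refine nc_cut (o := fl a (z₀ + (δ / 2 : ℝ))) h1 (fun h => ?_)
    (inB_of_near ha ?_ (mem_cnr.2 (Or.inl rfl)))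
  · obtain ⟨z, hz, h5⟩ := h2 _ h
    have h6 := (Complex.abs_re_le_norm _).trans h4
    have h7 := (Complex.abs_re_le_norm _).trans h5
    have h8 := hre z hz
    simp only [Complex.sub_re, Complex.add_re, Complex.ofReal_re] at h6 h7
    linarith [(abs_le.1 h6).1, (abs_le.1 h7).2]
  · have h5 := norm_sub_le_norm_sub_add_norm_sub (pt a (fl a (z₀ + (δ / 2 : ℝ))))
      (z₀ + (δ / 2 : ℝ)) z₀
    rw [add_sub_cancel_left, Complex.norm_real, Real.norm_of_nonneg (by positivity)] at h5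
    linarith

theorem diag {Q : ℕ → ℝ → Prop} (h : ∀ j, ∃ᶠ a in 𝓝[>] (0 : ℝ), Q j a) :
    ∃ (k : ℝ → ℕ) (S : Set ℝ), (∃ᶠ a in 𝓝[>] (0 : ℝ), a ∈ S) ∧ (∀ a ∈ S, Q (k a) a) ∧
      ∀ n, ∀ᶠ a in 𝓝[>] (0 : ℝ), a ∈ S → n ≤ k a := by
  have h1 : ∀ j : ℕ, ∃ a, Q j a ∧ 0 < a ∧ a ≤ 1 / ((j : ℝ) + 1) := fun j =>
    ((h j).and_eventually (P144P.ev_le (by positivity))).exists
  choose u hQ hu0 hu1 using h1
  have hu : Tendsto u atTop (𝓝[>] 0) := by
    rw [tendsto_nhdsWithin_iff]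
    exact ⟨squeeze_zero (fun k => (hu0 k).le) hu1 tendsto_one_div_add_atTop_nhds_zero_nat,
      Eventually.of_forall hu0⟩
  refine ⟨Function.invFun u, Set.range u, hu.frequently (Frequently.of_forall fun j => ⟨j, rfl⟩),
    fun a ha => ?_, fun n => ?_⟩
  · have := hQ (Function.invFun u a)
    rwa [Function.invFun_eq ha] at this
  · have : ∀ᶠ a in 𝓝[>] (0 : ℝ), ∀ j ∈ range n, a < u j :=
      (eventually_all_finset _).2 fun j _ => by
        filter_upwards [Ioo_mem_nhdsGT (hu0 j)] with a h using h.2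
    filter_upwards [this] with a h2 ha
    by_contra hc
    have := h2 _ (mem_range.2 (not_le.1 hc))
    rw [Function.invFun_eq ha] at this
    exact lt_irrefl _ this

/-- Removing a small box at the boundary hardly changes the correlations. -/
theorem cut_near {J : ℝ} {D : Set ℂ} {P : ℝ → Finset Site} (hP : FamP D P) {X : Finset ℂ}
    (hN : NormX J D X) {z₀ : ℂ} (h0 : z₀ ∉ D) (hre : ∀ z ∈ D, z.re ≤ z₀.re) {ε : ℝ} (hε : 0 < ε) :
    ∃ δ > (0 : ℝ), ∀ᶠ a in 𝓝[>] (0 : ℝ),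
      GP J (fun a => cut (P a) (fl a z₀) (mm δ a)) X a ≤ (1 + ε) * GP J P X a := by
  classical
  by_contra hc
  push Not at hc
  obtain ⟨k, S, hS, hQ, hk⟩ := diag (Q := fun j a =>
    (1 + ε) * GP J P X a < GP J (fun a => cut (P a) (fl a z₀) (mm (1 / ((j : ℝ) + 1)) a)) X a ∧
      NC (cut (P a) (fl a z₀) (mm (1 / ((j : ℝ) + 1)) a))) fun j =>
    (hc _ (by positivity)).and_eventually (ev_nc hP hre (by positivity))
  set P' : ℝ → Finset Site := fun a =>
    if a ∈ S then cut (P a) (fl a z₀) (mm (1 / ((k a : ℝ) + 1)) a) else P a with hP'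
  have hnc : ∀ᶠ a in 𝓝[>] (0 : ℝ), NC (P' a) := hP.2.mono fun a h => by
    simp only [hP']
    split_ifs with h1
    · exact (hQ a h1).2
    · exact h
  have hF : FamP D P' := by
    refine ⟨⟨fun z hz => ?_, fun η hη => (hP.1.sub η hη).mono fun a h x hx => h x ?_,
      hnc.mono fun a h => kc_of_nc h⟩, hnc⟩
    · obtain ⟨r, hr, h1⟩ := (ev_nf (P := fun a x => x ∈ P a)).1 (hP.1.inn z hz)
      have hd : 0 < ‖z - z₀‖ := norm_pos_iff.2 (sub_ne_zero.2 fun e => h0 (e ▸ hz))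
      obtain ⟨n, hn⟩ := exists_nat_one_div_lt (show 0 < ‖z - z₀‖ / 16 by positivity)
      refine (ev_nf (P := fun a x => x ∈ P' a)).2 ⟨min r (‖z - z₀‖ / 4), by positivity, ?_⟩
      filter_upwards [h1, hk n, P144P.ev_le (c := ‖z - z₀‖ / 80) (by positivity)]
        with a h2 h3 ⟨ha, h4⟩ x hx
      have h5 := h2 x (hx.trans (min_le_left _ _))
      simp only [hP']
      split_ifs with h6
      · refine mem_cut.2 ⟨h5, fun h7 => ?_⟩
        have h8 := near_of_inB ha (by positivity) h7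
        have h9 : 1 / ((k a : ℝ) + 1) ≤ 1 / ((n : ℝ) + 1) :=
          Nat.one_div_le_one_div (h3 h6)
        have h10 := norm_sub_le_norm_sub_add_norm_sub z (pt a x) z₀
        rw [norm_sub_rev z (pt a x)] at h10
        linarith [hx.trans (min_le_right _ _)]
      · exact h5
    · simp only [hP'] at hx
      split_ifs at hx
      · exact (mem_cut.1 hx).1
      · exact hx
  obtain ⟨g, hg, hl⟩ := hN
  have h1 := ((hl P hP).const_mul (1 + ε)).sub (hl P' hF)
  have h2 : 0 < (1 + ε) * g - g := by nlinarith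
  obtain ⟨a, ha, h3⟩ := (hS.and_eventually (h1.eventually (lt_mem_nhds h2))).exists
  have h4 := (hQ a ha).1
  have h5 : GP J P' X a =
      GP J (fun a' => cut (P a') (fl a' z₀) (mm (1 / ((k a : ℝ) + 1)) a')) X a := by
    unfold GP
    simp only [hP', if_pos ha]
  linarith

/-- A spin and a small cluster near the boundary are almost independent. -/
theorem clu (hK : SKW) (hB : SBlk) {J : ℝ} (hJ : 0 < J) {D : Set ℂ} {P : ℝ → Finset Site}
    (ho : IsOpen D) (hD : D ⊆ ball 0 (1 / 4)) (hP : FamB D P) {x₀ : ℂ} (hx : x₀ ∈ D)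
    (hN : NormX J D {x₀}) {n : ℕ} (hn : Even n) {ε : ℝ} (hε : 0 < ε) :
    ∃ C : Finset ℂ, (∀ w ∈ C, w ∈ D) ∧ x₀ ∉ C ∧ C.card = n ∧ ∀ᶠ a in 𝓝[>] (0 : ℝ),
      H436.MM (Vx (P a)) (fl a x₀ ::ₘ C.val.map (fl a)) ≤
        (1 + ε) * (H436.MM (Vx (P a)) {fl a x₀} * H436.MM (Vx (P a)) (C.val.map (fl a))) := by
  classical
  obtain ⟨z₀, hcl, h0, hre⟩ := exists_bd ho hD ⟨x₀, hx⟩
  have hη0 : 0 < ε / (2 + ε) := by positivity
  have hη1 : ε / (2 + ε) < 1 := by rw [div_lt_one (by positivity)]; linarith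
  have hη2 : 1 + ε / (2 + ε) = (1 + ε) * (1 - ε / (2 + ε)) := by field_simp; ring
  generalize ε / (2 + ε) = η at hη0 hη1 hη2
  obtain ⟨δ, hδ, hcut⟩ := cut_near hP.1 hN h0 hre hη0
  have hU : IsOpen (ball z₀ δ ∩ {x₀}ᶜ) := isOpen_ball.inter isOpen_compl_singleton
  obtain ⟨z, hz, hzD⟩ := mem_closure_iff.1 hcl _ hU ⟨mem_ball_self hδ, fun e => h0 (e ▸ hx)⟩
  obtain ⟨r, hr, hb⟩ := nhds_basis_closedBall.mem_iff.1 ((hU.inter ho).mem_nhds ⟨hz, hzD⟩)
  obtain ⟨ρ, hρ, rfl⟩ : ∃ ρ > (0 : ℝ), r = 9 * ρ := ⟨r / 9, by positivity, by ring⟩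
  obtain ⟨y, hinj, hy, hsw⟩ := A.sandwich hn hη0 hη1.le z hρ
  have hy' : ∀ i, y i ∈ closedBall z (9 * ρ) := fun i =>
    closedBall_subset_closedBall (by linarith) (hy i)
  refine ⟨univ.image y, fun w hw => ?_, fun hw => ?_,
    AL.card_im ⟨_, 0, y, Fin.elim0, Fin.elim0⟩ hinj, ?_⟩
  · obtain ⟨i, _, rfl⟩ := mem_image.1 hw
    exact (hb (hy' i)).2
  · obtain ⟨i, _, e⟩ := mem_image.1 hw
    exact (hb (hy' i)).1.2 e
  have hfar : 9 * ρ < ‖x₀ - z‖ := by
    by_contra hc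
    exact (hb (show x₀ ∈ closedBall z (9 * ρ) by
      rw [mem_closedBall, dist_eq_norm]; exact not_lt.1 hc)).1.2 rfl
  filter_upwards [hcut, hsw, hP.1.2, ev_nc hP.1 hre hδ, P144P.ev_le (c := ρ / 4) (by positivity),
    hP.2.2.cpt (isCompact_closedBall z (9 * ρ)) fun w hw => (hb hw).2]
    with a k1 k2 k3 k4 ⟨ha, k5⟩ k6
  have eC : (univ.image y).val.map (fl a) = fcs (srcs fun i => fl a (y i)) :=
    AL.Rp_eq ⟨_, 0, y, Fin.elim0, Fin.elim0⟩ hinj a
  rw [eC]
  set C := fcs (srcs fun i => fl a (y i)) with hC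
  set P₁ := cut (P a) (fl a z₀) (mm δ a) with hP₁
  set L := bx (fl a z) (⌈ρ / a⌉₊ + 1) with hL
  have hL1 : ∀ x ∈ L, pt a x ∈ closedBall z (8 * ρ) := fun x hx => by
    have := A.bx_ball ha k5 z 1 x (by rwa [one_mul])
    refine closedBall_subset_closedBall (le_of_eq ?_) this
    norm_num
  have hL2 : ∀ x ∈ L, pt a x ∈ closedBall z (9 * ρ) := fun x hx =>
    closedBall_subset_closedBall (by linarith) (hL1 x hx)
  have hL3 : ∀ x ∈ L, ∀ f, x ∈ cnr f → f ∉ P₁ := fun x hx f hf h =>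
    (mem_cut.1 h).2 (inB_of_near ha (by
      have := (hb (hL2 x hx)).1.1
      rw [mem_ball, dist_eq_norm] at this
      exact this.le) hf)
  have hL4 : fl a x₀ ∉ L := fun h => by
    have h1 := hL1 _ h
    rw [mem_closedBall, dist_eq_norm] at h1
    have h2 := pt_fl_norm ha x₀
    have h3 := norm_sub_le_norm_sub_add_norm_sub x₀ (pt a (fl a x₀)) z
    rw [norm_sub_rev x₀ (pt a _)] at h3
    linarith
  have hsub : Vx P₁ ⊆ Vx (P a) :=
    biUnion_subset_biUnion_of_subset_left _ fun x hx => (mem_cut.1 hx).1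
  have hdis : Disjoint (Vx P₁) L := disjoint_left.2 fun x hx hx' => by
    obtain ⟨f, hf, h⟩ := mem_biUnion.1 hx
    exact hL3 x hx' f h hf
  have hCout : ∀ x ∈ C, x ∉ P₁ := fun x hx => by
    obtain ⟨i, rfl⟩ := (P144P.mem_srcs _).1 hx
    refine hL3 _ (A.bx_fl ha ?_) _ (mem_cnr.2 (Or.inl rfl))
    have := hy i
    rwa [mem_closedBall, dist_eq_norm] at this
  have e1 := MM_le_two hsub (fun x hx => k6 x (hL2 x hx)) hdis (fl a x₀ ::ₘ C)
  rw [MM_bx hL4, ← sP_eq hK hB hJ k4 (blk_cut _ _ (hP.2.1 a)), ← Multiset.singleton_add,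
    sP_out J P₁ _ _ hCout, Multiset.singleton_add] at e1
  have e2 := k2 L (Vx (P a)) fun x hx => by
    have := A.bx_fl ha (show ‖pt a x - z‖ ≤ ρ by rwa [mem_closedBall, dist_eq_norm] at hx)
    rwa [fl_pt ha] at this
  rw [GP_one, GP_one, mul_left_comm, mul_le_mul_iff_right₀ (Real.rpow_pos_of_pos ha _),
    sP_eq hK hB hJ k3 (hP.2.1 a)] at k1
  have p1 := H436.MM_pos L C
  have p2 := H436.MM_pos (Vx (P a)) {fl a x₀}
  calc _ ≤ sP J P₁ {fl a x₀} * H436.MM L C := e1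
    _ ≤ (1 + η) * H436.MM (Vx (P a)) {fl a x₀} * H436.MM L C :=
      mul_le_mul_of_nonneg_right k1 p1.le
    _ = (1 + ε) * (H436.MM (Vx (P a)) {fl a x₀} * ((1 - η) * H436.MM L C)) := by
      rw [hη2]; ring
    _ ≤ _ := mul_le_mul_of_nonneg_left (mul_le_mul_of_nonneg_left e2 p2.le) (by linarith)

/-- **An odd number of spins.** -/
theorem odd (hK : SKW) (hB : SBlk) : SOdd := by
  classical
  intro J hJ D P ho hD hP hr hE hN X hX hodd
  obtain ⟨x₀, hx₀⟩ : X.Nonempty := card_pos.1 hodd.pos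
  obtain ⟨m, hm⟩ := hodd
  have key : ∀ ε > (0 : ℝ), ∃ (H : ℝ → ℝ) (w : ℝ), 0 < w ∧ Tendsto H (𝓝[>] 0) (𝓝 w) ∧
      ∀ᶠ a in 𝓝[>] (0 : ℝ), H a ≤ GP J P X a ∧ GP J P X a ≤ (1 + ε) * H a := by
    intro ε hε
    obtain ⟨C, hC, hxC, hc, h⟩ := clu hK hB hJ ho hD hP (hX x₀ hx₀) (hN x₀ (hX x₀ hx₀))
      (even_two_mul m) hε
    obtain ⟨ρ, hρ, h1⟩ := hr X (insert x₀ C) hX (fun w hw => by
      rcases mem_insert.1 hw with rfl | h
      · exact hX _ hx₀
      · exact hC w h) (by rw [card_insert_of_notMem hxC, hc, hm])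
    obtain ⟨g, hg, h2⟩ := hE C hC (hc ▸ even_two_mul m)
    obtain ⟨g', hg', h3⟩ := hN x₀ (hX x₀ hx₀)
    refine ⟨_, _, mul_pos hρ (mul_pos hg' hg), h1.mul ((h3 P hP.1).mul h2), ?_⟩
    filter_upwards [h, hP.1.2, self_mem_nhdsWithin] with a k1 k2 ha
    have ha : 0 < a := ha
    have eY : Mn (fun a => Vx (P a)) a (insert x₀ C) =
        H436.MM (Vx (P a)) (fl a x₀ ::ₘ C.val.map (fl a)) := by
      unfold Mn
      rw [insert_val_of_notMem hxC, Multiset.map_cons]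
    have k3 := H436.MM_gks (Vx (P a)) {fl a x₀} (C.val.map (fl a))
    rw [Multiset.singleton_add] at k3
    have ew : a ^ (-(X.card : ℝ) / 8) = a ^ (-(1 : ℝ) / 8) * a ^ (-(C.card : ℝ) / 8) := by
      rw [← Real.rpow_add ha, hm, hc]
      congr 1
      push_cast
      ring
    rw [GP_one, eY]
    unfold GP Gn Mn
    rw [sP_eq hK hB hJ k2 (hP.2.1 a), sP_eq hK hB hJ k2 (hP.2.1 a), ew]
    have p1 := H436.MM_pos (Vx (P a)) (X.val.map (fl a))
    have p2 := H436.MM_pos (Vx (P a)) (fl a x₀ ::ₘ C.val.map (fl a))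
    have p3 := Real.rpow_pos_of_pos ha (-(1 : ℝ) / 8)
    have p4 := Real.rpow_pos_of_pos ha (-(C.card : ℝ) / 8)
    generalize H436.MM (Vx (P a)) (X.val.map (fl a)) = mX at p1 ⊢
    generalize H436.MM (Vx (P a)) (fl a x₀ ::ₘ C.val.map (fl a)) = mY at p2 k1 k3 ⊢
    generalize H436.MM (Vx (P a)) {fl a x₀} = m1 at k1 k3 ⊢
    generalize H436.MM (Vx (P a)) (C.val.map (fl a)) = mC at k1 k3 ⊢
    generalize a ^ (-(1 : ℝ) / 8) = w1 at p3 ⊢
    generalize a ^ (-(C.card : ℝ) / 8) = w2 at p4 ⊢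
    have q : 0 < mX / mY * (w1 * w2) := by positivity
    have e1 : w1 * w2 * mX = mX / mY * (w1 * w2) * mY := by field_simp
    have e2 : mX / mY * (w1 * m1 * (w2 * mC)) = mX / mY * (w1 * w2) * (m1 * mC) := by ring
    rw [e1, e2]
    exact ⟨mul_le_mul_of_nonneg_left k3 q.le,
      (mul_le_mul_of_nonneg_left k1 q.le).trans_eq (by ring)⟩
  obtain ⟨H, w, -, h1, h2⟩ := key 1 one_pos
  refine H436.lim_of_factor (C := 2 * (w + 1)) ?_ key
  filter_upwards [h2, h1.eventually_lt_const (lt_add_one w)] with a h3 h4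
  linarith [h3.2]

end Vale.Agent.P144S.B
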