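import Vale.Agent.P144S.Defs
import Vale.Agent.P144Q.BXj
import Vale.Agent.P144Q.A.Xj

/-!
The ratios of disorder correlations converge for both parities.
-/

namespace Vale.Agent.P144S.B

open Finset Vale.Agent.P144 Filter Topology Vale.Agent.P144Q Vale.Agent.P144Q.B
open Vale.Agent.P144.H436 (rs rc fam QQ_pos)

/-- PATH: the ratios of disorder correlations converge. -/
theorem ratioO_of_grad {Ω : Dom} {Λ : ℝ → Finset Site} (hL : Fam0 Ω.D Λ)
    (h5 : ∀ n, T5 Ω.D n (-1, -1)) (h5' : ∀ n, T5 Ω.D n (1, -1)) (h0 : ∀ n, T0 Ω.D n (1, 0)) :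
    RatioO Ω.D Λ := by
  intro X X' hX hX' hc
  have key : ∀ (k : ℕ) (X : Finset ℂ), (∀ z ∈ X, z ∈ Ω.D) → X.card = X'.card →
      (X' \ X).card = k →
      ∃ q > 0, Tendsto (fun a => Mn Λ a X / Mn Λ a X') (𝓝[>] 0) (𝓝 q) := by
    intro k
    induction k with
    | zero =>
      intro X _ hc hk
      have h1 : X' ⊆ X := by
        rw [← sdiff_eq_empty_iff_subset]; exact card_eq_zero.1 hk
      have h2 : X' = X := eq_of_subset_of_card_le h1 hc.le
      subst h2
      refine ⟨1, one_pos, ?_⟩
      have : (fun a => Mn Λ a X' / Mn Λ a X') = fun _ => 1 := by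
        funext a; exact div_self (Mn_pos Λ a X').ne'
      rw [this]
      exact tendsto_const_nhds
    | succ k ih =>
      intro X hX hc hk
      obtain ⟨w, hw⟩ : (X' \ X).Nonempty := card_pos.1 (by omega)
      rw [Finset.mem_sdiff] at hw
      have hk2 : (X \ X').card = k + 1 := by
        rw [← hk]
        exact card_sdiff_comm hc
      obtain ⟨z, hz⟩ : (X \ X').Nonempty := card_pos.1 (by omega)
      rw [Finset.mem_sdiff] at hz
      set Y := X.erase z with hY
      have hzY : z ∉ Y := notMem_erase z X
      have hXY : X = insert z Y := (insert_erase hz.1).symm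
      have hwY : w ∉ Y := fun h => hw.2 (erase_subset _ _ h)
      have hYc : Y.card + 1 = X.card := by rw [hXY, card_insert_of_notMem hzY]
      let ρ : Fin Y.card → ℂ := fun p => (Y.equivFin.symm p : ℂ)
      have hρ : univ.val.map ρ = Y.val := by
        have h1 : (univ : Finset (Fin Y.card)).val.map ρ =
            ((univ : Finset (Fin Y.card)).map ⟨ρ, fun p q h =>
              Y.equivFin.symm.injective (Subtype.ext h)⟩).val := rfl
        rw [h1]
        congr 1
        ext x
        rw [Finset.mem_map]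
        constructor
        · rintro ⟨p, _, rfl⟩
          exact (Y.equivFin.symm p).2
        · intro h
          exact ⟨Y.equivFin ⟨x, h⟩, mem_univ _, by
            change ((Y.equivFin.symm (Y.equivFin ⟨x, h⟩) : Y) : ℂ) = x
            rw [Equiv.symm_apply_apply]⟩
      have hfam : ∀ a : ℝ, fam (fun p => fl a (ρ p)) = Y.val.map (fl a) := by
        intro a
        unfold fam
        rw [← hρ, Multiset.map_map]
        rfl
      have hrange : Set.range ρ = (Y : Set ℂ) := by
        ext x
        constructor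
        · rintro ⟨p, rfl⟩
          exact (Y.equivFin.symm p).2
        · intro h
          exact ⟨Y.equivFin ⟨x, h⟩, by simp [ρ]⟩
      have hYD : ∀ x ∈ Y, x ∈ Ω.D := fun x hx => hX x (erase_subset _ _ hx)
      obtain ⟨q, hq, hlim⟩ := all_rel hL (ρ := ρ) (z := w) (w := z) (h5 _) (h5' _) (h0 _)
        (fun p => hYD _ (Y.equivFin.symm p).2)
        (fun p q h => Y.equivFin.symm.injective (Subtype.ext h))
        ⟨hX' w hw.1, by rw [hrange]; exact hwY⟩ ⟨hX z hz.1, by rw [hrange]; exact hzY⟩
      obtain ⟨q', hq', hlim'⟩ := ih (insert w Y) (fun x hx => by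
        rcases mem_insert.1 hx with rfl | h
        · exact hX' _ hw.1
        · exact hYD x h) (by rw [card_insert_of_notMem hwY, hYc, hc])
        (by
          have h1 : X' \ insert w Y = (X' \ X).erase w := by
            ext x
            simp only [Finset.mem_sdiff, mem_insert, mem_erase, hXY, not_or]
            constructor
            · rintro ⟨h1, h2, h3⟩
              refine ⟨h2, h1, ?_, h3⟩
              rintro rfl; exact hz.2 h1
            · rintro ⟨h1, h2, h3, h4⟩
              exact ⟨h2, h1, h4⟩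
          rw [h1, card_erase_of_mem (Finset.mem_sdiff.2 hw), hk]
          rfl)
      refine ⟨q * q', mul_pos hq hq', (hlim.mul hlim').congr' ?_⟩
      have hpos : ∀ᶠ a in 𝓝[>] (0:ℝ), 0 < a := self_mem_nhdsWithin
      filter_upwards [hpos] with a ha
      have e1 : ∀ v, v ∉ Y → Mn Λ a (insert v Y) =
          AL.QQ (Λ a) (fl a v ::ₘ fam fun p => fl a (ρ p)) 0 / AL.QQ (Λ a) 0 0 := by
        intro v hv
        rw [Mn_insert hv, hfam]
        rfl
      rw [hXY, e1 z hzY, e1 w hwY]
      unfold qr
      have h1 := (QQ_pos (Λ a) 0).ne'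
      have h2 := (QQ_pos (Λ a) (fl a w ::ₘ fam fun p => fl a (ρ p))).ne'
      have h3 := (Mn_pos Λ a X').ne'
      field_simp
  exact key _ X hX hc rfl

/-- **The ratios, for both parities.** -/
theorem rat : SRatO := by
  intro Ω Ω' hD Λ hL
  have h5' : ∀ n, T5 Ω.D n (1, -1) := fun n => by
    have h1 := t5 (A.xj Ω') n
    rw [hD] at h1
    have h2 := h1.refl
    have e : P144.H436.rs (-1, -1) = (1, -1) := by unfold P144.H436.rs; ext <;> simp
    rwa [e] at h2
  exact ratioO_of_grad hL (fun n => t5 (A.xj Ω) n) h5' fun n => t0 (A.xj Ω) n (h5' n)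

end Vale.Agent.P144S.B
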